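import Vale.Agent.P168.H45.Final
import Vale.Agent.P168.H791.Bridge

open MeasureTheory ProbabilityTheory Filter
open scoped NNReal Topology

namespace Vale.Agent.Results.P168.AllClauseSizes

open Vale.Agent.P168

/-- (1) The Mézard-Parisi formula as posed. (2) The formula, the bound for every `N`, and `L¹`
convergence of the random pressure (Poisson or deterministic number of interactions) for every
`K ≥ 1`, `K` even or `f_j ≥ 0`. (3) Random `K`-SAT for every `K ≥ 1`: free energy and minimal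
number of violated clauses. -/
theorem result :
    (∀ (K : ℕ) (lam : ℝ≥0) (ρ : Measure (Clause K)) (ν : Measure ℝ), InClass K ρ ν →
      ∃ L : ℝ, Tendsto (fun N : ℕ => pressure lam ρ ν N) atTop (𝓝 L) ∧
        mezardParisi lam ρ ν = (L : EReal)) ∧
    (∀ (K : ℕ) (lam : ℝ≥0) (ρ : Measure (Clause K)) (ν : Measure ℝ), WideClass K ρ ν →
      ∃ L : ℝ, mezardParisi lam ρ ν = (L : EReal) ∧
        Tendsto (fun N : ℕ => pressure lam ρ ν N) atTop (𝓝 L) ∧
        (∀ N : ℕ, 1 ≤ N → pressure lam ρ ν N ≤ L) ∧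
        Tendsto (fun N : ℕ => ∫ n, (∫ ω, |randomPressure ω - L| ∂(disorder ρ ν N n))
          ∂(poissonMeasure (lam * N))) atTop (𝓝 0) ∧
        ∀ M : ℕ → ℕ, Tendsto (fun N => (M N : ℝ) / N) atTop (𝓝 (lam : ℝ)) →
          Tendsto (fun N => ∫ ω, |randomPressure ω - L| ∂(disorder ρ ν N (M N)))
            atTop (𝓝 0)) ∧
    ∀ K : ℕ, 1 ≤ K →
      (∀ β : ℝ, 0 ≤ β → WideClass K (satLaw K β) (Measure.dirac 0)) ∧
      ∀ lam : ℝ≥0, ∃ (P : ℝ → ℝ) (e : ℝ),
        (∀ β, 0 ≤ β → mezardParisi lam (satLaw K β) (Measure.dirac 0) = (P β : EReal)) ∧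
        Tendsto (fun β => -P β / β) atTop (𝓝 e) ∧
        ∀ M : ℕ → ℕ, Tendsto (fun N => (M N : ℝ) / N) atTop (𝓝 (lam : ℝ)) →
          (∀ β, 0 ≤ β → Tendsto (fun N => average fun φ : Formula K N (M N) =>
            |1 / (N : ℝ) * Real.log (∑ σ, Real.exp (-β * unsat φ σ)) - P β|) atTop (𝓝 0)) ∧
          Tendsto (fun N => average fun φ : Formula K N (M N) =>
            |((⨅ σ, unsat φ σ : ℕ) : ℝ) / N - e|) atTop (𝓝 0) :=
  ⟨fun _ lam _ _ h => Fin45.formula (Fin45.wide_of_in h) lam,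
    fun _ lam _ _ h => Fin45.model h lam,
    fun _ hK => ⟨fun _ hβ => Fin45.wide_of_pos (Sat.posClass hK hβ),
      fun lam => Fin45.sat (fun K N M _ β g => Sat.bridge K N M β (NeZero.one_le) g) hK lam⟩⟩

end Vale.Agent.Results.P168.AllClauseSizes
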