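import Vale.Agent.P168.H45.GlassMain
import Vale.Agent.P168.H45.CutMain

open MeasureTheory ProbabilityTheory Filter
open scoped NNReal Topology

namespace Vale.Agent.Results.P168.SparseMaxCut

open Vale.Agent.P168

/-- (1) The Mézard-Parisi formula as posed. (2) Ground state energy of every diluted `K`-spin
glass, `K` even, with a symmetric or nonpositive coupling `J` and any field. (3) The
antiferromagnet and the maximal cut on sparse random simple graphs, for every density. -/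
theorem result :
    (∀ (K : ℕ) (lam : ℝ≥0) (ρ : Measure (Clause K)) (ν : Measure ℝ), InClass K ρ ν →
      ∃ L : ℝ, Tendsto (fun N : ℕ => pressure lam ρ ν N) atTop (𝓝 L) ∧
        mezardParisi lam ρ ν = (L : EReal)) ∧
    (∀ (K : ℕ) (γ ν : Measure ℝ) [IsProbabilityMeasure γ] [IsProbabilityMeasure ν],
      2 ≤ K → Even K → Integrable (fun x => x) γ → Integrable (fun x => x) ν →
      (γ.map (fun x => -x) = γ ∨ ∀ᵐ x ∂γ, x ≤ 0) →
      ∀ lam : ℝ≥0, ∃ (P : ℝ → ℝ) (e : ℝ),
        (∀ β, 0 < β → InClass K (glassLaw K γ β) (ν.map fun x => β * x) ∧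
          mezardParisi lam (glassLaw K γ β) (ν.map fun x => β * x) = (P β : EReal)) ∧
        Tendsto (fun β => P β / β) atTop (𝓝 e) ∧ (∀ β, 0 < β → e ≤ P β / β) ∧
        Tendsto (fun N : ℕ => ∫ n : ℕ, (∫ ω : Couplings K N n, |(⨆ σ, energy ω σ) / N - e|
          ∂(couplings K γ ν N n)) ∂(poissonMeasure (lam * N))) atTop (𝓝 0) ∧
        ∀ M : ℕ → ℕ, Tendsto (fun N => (M N : ℝ) / N) atTop (𝓝 (lam : ℝ)) →
          Tendsto (fun N : ℕ => ∫ ω : Couplings K N (M N), |(⨆ σ, energy ω σ) / N - e|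
            ∂(couplings K γ ν N (M N))) atTop (𝓝 0)) ∧
    ∀ lam : ℝ≥0, ∃ (P : ℝ → ℝ) (m : ℝ),
      (∀ β, 0 < β → InClass 2 (cutLaw β) (Measure.dirac 0) ∧
        mezardParisi lam (cutLaw β) (Measure.dirac 0) = (P β : EReal)) ∧
      Tendsto (fun β => P β / β) atTop (𝓝 m) ∧ (∀ β, 0 < β → m ≤ P β / β) ∧
      ∀ M : ℕ → ℕ, Tendsto (fun N => (M N : ℝ) / N) atTop (𝓝 (lam : ℝ)) →
        (∀ β, 0 < β → Tendsto (fun N => graphAverage N (M N) fun G =>
          |1 / (N : ℝ) * Real.log (∑ σ, Real.exp (β * cutSize G σ)) - P β|) atTop (𝓝 0)) ∧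
        Tendsto (fun N => graphAverage N (M N) fun G => |(maxCut G : ℝ) / N - m|)
          atTop (𝓝 0) := by
  refine ⟨fun _ lam _ _ h => Fin45.formula (Fin45.wide_of_in h) lam, ?_, ?_⟩
  · intro K γ ν _ _ h1 h2 h3 h4 h5 lam
    have h := Gl.main h1 h2 h3 h4 h5 lam
    unfold Gl.gs at h
    exact h
  · intro lam
    have h := Cut.main lam
    unfold Cut.gfe Cut.ggs at h
    exact h

end Vale.Agent.Results.P168.SparseMaxCut
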